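import Mathlib.Logic.Basic

/-
# P032: locks between two harmless points, and the plan for one common statement (notes only)

Notation of the frame `Irr U T` with minimal palettes (`Mn`): `T q` is the palette, `Pal U q` the set
of i with q in the closure of U i, S(x) the unit circle of x, W the union of the U i.  A point x with
four colours is HARMLESS with pair A (`Harm T x A`) if A is contained in every palette of S(x) which
is contained in T x (and exact A-arcs exist); otherwise it is a two-pair point (`DPt`).
LINE RULE (`line_free`): if |w - x| = 1 and i is in T q for all q of S(x) near w, then i is in Pal U g
for no g of S(w) off the line through x and w.

## 0. Why locks of harmless points are the only obstacle

`P032.StoppedArcs` : some exact ab-arc of a two-pair point ab|cd stops at a point of order > 3.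
`P032.CommonColours` : some two points of order > 3 at distance one have three common indices.
Common target: BOTH at the same pair of points.  In the frame in which no exact arc of a two-pair
point stops at a point of order > 3 which has three colours of it, `EW.two` (R2/H333/WS.lean) proves
that a two-pair point and a contact of it have at most two common colours.  So the common target
follows from `EW.wt` as soon as the field `EW.hh` is proved: two harmless points at distance one have
at most two common colours.  (The field cannot be replaced by a condition on the sets U i of the form
that neither x nor x' is a two-pair point: the sets U i may overlap, and a point with literal ef-arcs
can be harmless for the chosen palettes T, which name other colours on these arcs.)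

## 1. Equal palettes: proved facts

Let x, y be harmless with pairs A, B, |x - y| = 1, T x = T y.
(a) A and B are disjoint and T x is their union; S(x) near y, except y, has exactly the palette A;
    S(y) near x, except x, exactly B.
    Proof. Near y the palettes of S(x) are inside T y = T x, hence contain A; by the line rule no
    colour of A is on S(y) off the line, in particular not on S(y) near x except at x.  The palettes
    of S(y) near x are inside T x = T y, hence contain B.  So B is disjoint from A.  Exchange x and y.
(b) A colour of B is in Pal U q for no q of S(x) except y and 2x - y; a colour of A for no q of S(y)
    except x and 2y - x.  The two common neighbours of x and y have palettes inside the complement
    of T x.  (Line rule.)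
(c) In a double sector D_x at x about the tangent of S(y) only colours of B occur, in a double
    sector D_y at y about the tangent of S(x) only colours of A.
(d) For c in B and w near x: w is not in U c iff S(w) meets the closure of U c, and then only near y
    or near 2x - y.  So near x the complement of U c is a union of complete arcs of circles S(v),
    v in the closure of U c near y or near 2x - y, which cross D_x on both sides.
(e) Since B does not suffice near x (minimal palette), there are open sets V arbitrarily near x
    without the two colours c, d of B.  For w in V there are v, v' on S(w), near y or near 2x - y,
    with c in Pal U v and d in Pal U v'; on S(v) in D_x all palettes contain d, on S(v') in D_x all
    contain c; S(v) and S(v') cross at w.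
(f) If w is in U a (A = ab) then the strip swept by S(w) near w is free of a near y, solid b in D_y.
    The points v, v' of (e) lie in this strip.  No contradiction is known: U b may overlap U c and
    U d there, so that T names only b on the strip.  What is missing is a rule which forbids this
    overlap, or a choice of the maximal family which removes c and d from the strip.

## 2. Three common colours: proved facts

Let x, y be harmless with pairs A, B, |x - y| = 1, T x = abcd, T y = abce.
(a) If e is not in T q for points q of S(x) arbitrarily near y, then y is a limit of exact A-arcs of
    S(x): there T q is inside abc, contains A, and has three colours for at most one pair q, 2x - q
    (`third_notMem`).  So either y is a limit of exact A-arcs of x, or e is in T q for all q of S(x)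
    near y.
(b) In the second case e is in Pal U g for no g of S(y) except 2y - x, and e is in Pal U (2y - x),
    because U e has a partner on S(y).  Then S(2y - x), which touches S(x) at y, is free of e near
    y and every point of it near y has one of the colours a, b, c.
(c) The same with x and y, d and e exchanged.
-/
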